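import Mathlib

set_option autoImplicit false

/-! The set version of the second-neighbourhood deficit in an arc-minimal counterexample. -/

namespace Crest.Agent.R057

open Finset

open Classical in
/-- First out-neighbourhood. -/
noncomputable def N1 {V : Type*} [Fintype V] (A : V → V → Prop) (v : V) : Finset V :=
  univ.filter (fun u => A v u)

open Classical in
/-- Second out-neighbourhood. -/
noncomputable def N2 {V : Type*} [Fintype V] (A : V → V → Prop) (v : V) : Finset V :=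
  univ.filter (fun w => w ≠ v ∧ ¬ A v w ∧ ∃ u, A v u ∧ A u w)

open Classical in
/-- Closed out-neighbourhood of a set. -/
noncomputable def Fc {V : Type*} [Fintype V] (A : V → V → Prop) (S : Finset V) : Finset V :=
  univ.filter (fun w => ∃ u ∈ S, u = w ∨ A u w)

theorem mem_N1 {V : Type*} [Fintype V] {A : V → V → Prop} {v u : V} : u ∈ N1 A v ↔ A v u := by
  simp [N1]

theorem mem_N2 {V : Type*} [Fintype V] {A : V → V → Prop} {v w : V} :
    w ∈ N2 A v ↔ w ≠ v ∧ ¬ A v w ∧ ∃ u, A v u ∧ A u w := by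
  simp [N2]

theorem mem_Fc {V : Type*} [Fintype V] {A : V → V → Prop} {S : Finset V} {w : V} :
    w ∈ Fc A S ↔ ∃ u ∈ S, u = w ∨ A u w := by
  simp only [Fc, Finset.mem_filter, Finset.mem_univ, true_and]

theorem subset_Fc {V : Type*} [Fintype V] (A : V → V → Prop) (S : Finset V) : S ⊆ Fc A S :=
  fun w hw => mem_Fc.2 ⟨w, hw, Or.inl rfl⟩

theorem sd_step {V : Type*} [Fintype V] (A : V → V → Prop)
    (hc : ∀ v, #(N2 A v) < #(N1 A v)) (S : Finset V) (hne : Fc A S ≠ S)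
    (hge : 2 * #(Fc A S) ≤ #(Fc A (Fc A S)) + #S) :
    ∃ A' : V → V → Prop, (∀ u v, A' u v → A u v) ∧ (∃ u v, A u v ∧ ¬ A' u v) ∧
      ∀ v, #(N2 A' v) < #(N1 A' v) := by
  classical
  set T := Fc A S \ S with hT
  have hTne : T.Nonempty := by
    rw [hT, Finset.sdiff_nonempty]
    intro h
    exact hne (Finset.Subset.antisymm h (subset_Fc A S))
  let ψ : Finset V → ℤ := fun R => (#(Fc A R \ S) : ℤ) - 2 * #R
  have hψ0 : ψ ∅ = 0 := by
    have : Fc A ∅ = ∅ := by
      ext w; simp [mem_Fc]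
    simp [ψ, this]
  have hψT : 0 ≤ ψ T := by
    have h1 : Fc A (Fc A S) ⊆ (Fc A T \ S) ∪ S := by
      intro w hw
      by_cases hwS : w ∈ S
      · exact Finset.mem_union_right _ hwS
      refine Finset.mem_union_left _ (Finset.mem_sdiff.2 ⟨?_, hwS⟩)
      obtain ⟨u, hu, huw⟩ := mem_Fc.1 hw
      by_cases huS : u ∈ S
      · exact subset_Fc A T (Finset.mem_sdiff.2 ⟨mem_Fc.2 ⟨u, huS, huw⟩, hwS⟩)
      · exact mem_Fc.2 ⟨u, Finset.mem_sdiff.2 ⟨hu, huS⟩, huw⟩
    have h2 := (Finset.card_le_card h1).trans (Finset.card_union_le _ _)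
    have h3 : #T + #S = #(Fc A S) := Finset.card_sdiff_add_card_eq_card (subset_Fc A S)
    simp only [ψ]
    omega
  obtain ⟨R, hR, hmin⟩ := Finset.exists_min_image (T.powerset.erase T) ψ
    ⟨∅, Finset.mem_erase.2 ⟨hTne.ne_empty.symm, Finset.empty_mem_powerset _⟩⟩
  obtain ⟨hRT, hRT'⟩ := Finset.mem_erase.1 hR
  rw [Finset.mem_powerset] at hRT'
  have hmin' : ∀ R' ⊆ T, ψ R ≤ ψ R' := by
    intro R' hR'
    by_cases h : R' = T
    · rw [h]
      have := hmin ∅ (Finset.mem_erase.2 ⟨hTne.ne_empty.symm, Finset.empty_mem_powerset _⟩)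
      omega
    · exact hmin R' (Finset.mem_erase.2 ⟨h, Finset.mem_powerset.2 hR'⟩)
  set D := T \ R with hD
  refine ⟨fun u w => A u w ∧ ¬ (u ∈ S ∧ w ∈ D), fun u v h => h.1, ?_, ?_⟩
  · have hDne : D.Nonempty := by
      rw [hD, Finset.sdiff_nonempty]
      intro h
      exact hRT (Finset.Subset.antisymm hRT' h)
    obtain ⟨w, hw⟩ := hDne
    obtain ⟨hw1, hw2⟩ := Finset.mem_sdiff.1 (Finset.mem_sdiff.1 hw).1
    obtain ⟨u, hu, huw⟩ := mem_Fc.1 hw1
    rcases huw with rfl | huw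
    · exact (hw2 hu).elim
    · exact ⟨u, w, huw, fun h => h.2 ⟨hu, hw⟩⟩
  intro v
  have hv := hc v
  by_cases hvS : v ∈ S
  · set B := N1 A v ∩ D with hB
    set G0 := Fc A B \ (S ∪ Fc A R) with hG0
    have hBT : B ⊆ T := fun w hw => (Finset.mem_sdiff.1 (Finset.mem_inter.1 hw).2).1
    have e1 : #(N1 A v) ≤ #(N1 (fun u w => A u w ∧ ¬ (u ∈ S ∧ w ∈ D)) v) + #B := by
      refine le_trans (Finset.card_le_card ?_) (Finset.card_union_le _ _)
      intro w hw
      by_cases hwD : w ∈ D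
      · exact Finset.mem_union_right _ (Finset.mem_inter.2 ⟨hw, hwD⟩)
      · exact Finset.mem_union_left _ (mem_N1.2 ⟨mem_N1.1 hw, fun h => hwD h.2⟩)
    have e2 : 2 * #B ≤ #G0 := by
      have h1 := hmin' (R ∪ B) (Finset.union_subset hRT' hBT)
      have h2 : #(R ∪ B) = #R + #B := by
        refine Finset.card_union_of_disjoint (Finset.disjoint_left.2 fun w hw hw' => ?_)
        exact (Finset.mem_sdiff.1 (Finset.mem_inter.1 hw').2).2 hw
      have h3 : Fc A (R ∪ B) \ S ⊆ (Fc A R \ S) ∪ G0 := by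
        intro w hw
        obtain ⟨hw1, hw2⟩ := Finset.mem_sdiff.1 hw
        by_cases hwR : w ∈ Fc A R
        · exact Finset.mem_union_left _ (Finset.mem_sdiff.2 ⟨hwR, hw2⟩)
        refine Finset.mem_union_right _ (Finset.mem_sdiff.2 ⟨?_, ?_⟩)
        · obtain ⟨u, hu, huw⟩ := mem_Fc.1 hw1
          rcases Finset.mem_union.1 hu with hu | hu
          · exact (hwR (mem_Fc.2 ⟨u, hu, huw⟩)).elim
          · exact mem_Fc.2 ⟨u, hu, huw⟩
        · intro h
          rcases Finset.mem_union.1 h with h | h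
          · exact hw2 h
          · exact hwR h
      have h4 := (Finset.card_le_card h3).trans (Finset.card_union_le _ _)
      simp only [ψ] at h1
      omega
    have e3 : Disjoint (N2 (fun u w => A u w ∧ ¬ (u ∈ S ∧ w ∈ D)) v) G0 := by
      rw [Finset.disjoint_left]
      intro w hw hw'
      obtain ⟨-, -, u, ⟨hvu, hu⟩, huw, huw'⟩ := mem_N2.1 hw
      apply (Finset.mem_sdiff.1 hw').2
      by_cases hwS : w ∈ S
      · exact Finset.mem_union_left _ hwS
      refine Finset.mem_union_right _ ?_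
      by_cases huS : u ∈ S
      · have hwT : w ∈ T := Finset.mem_sdiff.2 ⟨mem_Fc.2 ⟨u, huS, Or.inr huw⟩, hwS⟩
        by_cases hwR : w ∈ R
        · exact subset_Fc A R hwR
        · exact (huw' ⟨huS, Finset.mem_sdiff.2 ⟨hwT, hwR⟩⟩).elim
      · have huT : u ∈ T := Finset.mem_sdiff.2 ⟨mem_Fc.2 ⟨v, hvS, Or.inr hvu⟩, huS⟩
        by_cases huR : u ∈ R
        · exact mem_Fc.2 ⟨u, huR, Or.inr huw⟩
        · exact (hu ⟨hvS, Finset.mem_sdiff.2 ⟨huT, huR⟩⟩).elim
    have e4 : N2 (fun u w => A u w ∧ ¬ (u ∈ S ∧ w ∈ D)) v ∪ G0 ⊆ N2 A v ∪ B := by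
      intro w hw
      rcases Finset.mem_union.1 hw with hw | hw
      · obtain ⟨h1, h2, u, ⟨hvu, -⟩, huw, -⟩ := mem_N2.1 hw
        by_cases hvw : A v w
        · refine Finset.mem_union_right _ (Finset.mem_inter.2 ⟨mem_N1.2 hvw, ?_⟩)
          by_contra hwD
          exact h2 ⟨hvw, fun h => hwD h.2⟩
        · exact Finset.mem_union_left _ (mem_N2.2 ⟨h1, hvw, u, hvu, huw⟩)
      · obtain ⟨h1, h2⟩ := Finset.mem_sdiff.1 hw
        have hwS : w ∉ S := fun h => h2 (Finset.mem_union_left _ h)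
        have hwR : w ∉ R := fun h => h2 (Finset.mem_union_right _ (subset_Fc A R h))
        by_cases hvw : A v w
        · refine Finset.mem_union_right _ (Finset.mem_inter.2 ⟨mem_N1.2 hvw, ?_⟩)
          exact Finset.mem_sdiff.2
            ⟨Finset.mem_sdiff.2 ⟨mem_Fc.2 ⟨v, hvS, Or.inr hvw⟩, hwS⟩, hwR⟩
        · obtain ⟨b, hb, hbw⟩ := mem_Fc.1 h1
          have hvb : A v b := mem_N1.1 (Finset.mem_inter.1 hb).1
          rcases hbw with rfl | hbw
          · exact (hvw hvb).elim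
          · exact Finset.mem_union_left _
              (mem_N2.2 ⟨fun h => hwS (h ▸ hvS), hvw, b, hvb, hbw⟩)
    have e5 := (Finset.card_le_card e4).trans (Finset.card_union_le _ _)
    rw [Finset.card_union_of_disjoint e3] at e5
    omega
  · have e1 : #(N1 A v) ≤ #(N1 (fun u w => A u w ∧ ¬ (u ∈ S ∧ w ∈ D)) v) :=
      Finset.card_le_card fun w hw => mem_N1.2 ⟨mem_N1.1 hw, fun h => hvS h.1⟩
    have e2 : #(N2 (fun u w => A u w ∧ ¬ (u ∈ S ∧ w ∈ D)) v) ≤ #(N2 A v) := by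
      refine Finset.card_le_card fun w hw => ?_
      obtain ⟨h1, h2, u, ⟨hvu, -⟩, huw, -⟩ := mem_N2.1 hw
      exact mem_N2.2 ⟨h1, fun h => h2 ⟨h, fun h' => hvS h'.1⟩, u, hvu, huw⟩
    omega

end Crest.Agent.R057
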