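import Crest.Agent.R057.LemQ
import Crest.Agent.R057.SD

set_option autoImplicit false

/-! The extremal argument on pairs for row 57. -/

namespace Crest.Agent.R057

open Finset

theorem card_eq_sum_row {V : Type*} [Fintype V] [DecidableEq V] (X : Finset (V × V)) :
    #X = ∑ x, #(univ.filter (fun y => (x, y) ∈ X)) := by
  have : X = univ.filter (fun z => z ∈ X) := by simp
  conv_lhs => rw [this]
  rw [Finset.card_filter, Fintype.sum_prod_type]
  simp only [Finset.card_filter]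

theorem card_eq_sum_col {V : Type*} [Fintype V] [DecidableEq V] (X : Finset (V × V)) :
    #X = ∑ y, #(univ.filter (fun x => (x, y) ∈ X)) := by
  have : X = univ.filter (fun z => z ∈ X) := by simp
  conv_lhs => rw [this]
  rw [Finset.card_filter, Fintype.sum_prod_type_right]
  simp only [Finset.card_filter]

theorem row_Mo {V : Type*} [Fintype V] [DecidableEq V] (A : V → V → Prop) (X : Finset (V × V))
    (x : V) : univ.filter (fun y => (x, y) ∈ Mo (fun u w => u = w ∨ A u w) X) =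
      Fc A (univ.filter (fun y => (x, y) ∈ X)) := by
  ext y
  simp only [Finset.mem_filter, Finset.mem_univ, true_and, mem_Mo, mem_Fc]

theorem col_Lo {V : Type*} [Fintype V] [DecidableEq V] (A : V → V → Prop) (X : Finset (V × V))
    (y : V) : univ.filter (fun x => (x, y) ∈ Lo (fun u w => u = w ∨ A u w) X) =
      Fc A (univ.filter (fun x => (x, y) ∈ X)) := by
  ext x
  simp only [Finset.mem_filter, Finset.mem_univ, true_and, mem_Lo, mem_Fc]

theorem core {V : Type*} [Fintype V] [Nonempty V] (A : V → V → Prop)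
    (hloop : ∀ v, ¬ A v v) (hopp : ∀ u v, A u v → ¬ A v u) (hout : ∀ v, ∃ u, A v u)
    (hSD : ∀ S : Finset V, Fc A S ≠ S → #(Fc A (Fc A S)) + #S < 2 * #(Fc A S)) : False := by
  classical
  have hSD' : ∀ S : Finset V, #(Fc A (Fc A S)) + #S ≤ 2 * #(Fc A S) := by
    intro S
    by_cases h : Fc A S = S
    · rw [h, h]; omega
    · exact (hSD S h).le
  set N : V → V → Prop := fun u w => u = w ∨ A u w with hN
  have hNr : ∀ u, N u u := fun u => Or.inl rfl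
  have hrow : ∀ X : Finset (V × V), (∃ x, Fc A (univ.filter (fun y => (x, y) ∈ X)) ≠
      univ.filter (fun y => (x, y) ∈ X)) → #(Mo N (Mo N X)) + #X < 2 * #(Mo N X) := by
    rintro X ⟨x, hx⟩
    rw [card_eq_sum_row (Mo N (Mo N X)), card_eq_sum_row (Mo N X), card_eq_sum_row X,
      ← Finset.sum_add_distrib, Finset.mul_sum]
    simp only [hN, row_Mo]
    exact Finset.sum_lt_sum (fun i _ => hSD' _) ⟨x, Finset.mem_univ _, hSD _ hx⟩
  have hcol : ∀ Y : Finset (V × V), #(Lo N (Lo N Y)) + #Y ≤ 2 * #(Lo N Y) := by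
    intro Y
    rw [card_eq_sum_col (Lo N (Lo N Y)), card_eq_sum_col (Lo N Y), card_eq_sum_col Y,
      ← Finset.sum_add_distrib, Finset.mul_sum]
    simp only [hN, col_Lo]
    exact Finset.sum_le_sum (fun i _ => hSD' _)
  set Δ : Finset (V × V) := univ.filter (fun z => z.1 = z.2) with hΔ
  have hΔm : ∀ z : V × V, z ∈ Δ ↔ z.1 = z.2 := by intro z; simp [hΔ]
  have hMΔ : ∀ z : V × V, z ∈ Mo N Δ ↔ N z.1 z.2 := by
    intro z
    simp only [mem_Mo, hΔm]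
    exact ⟨fun ⟨y, h1, h2⟩ => h1 ▸ h2, fun h => ⟨_, rfl, h⟩⟩
  have hLΔ : ∀ z : V × V, z ∈ Lo N Δ ↔ N z.2 z.1 := by
    intro z
    simp only [mem_Lo, hΔm]
    exact ⟨fun ⟨y, h1, h2⟩ => h1 ▸ h2, fun h => ⟨_, rfl, h⟩⟩
  have hNN : ∀ u w, N u w → N w u → u = w := by
    rintro u w (h | h) (h' | h')
    · exact h
    · exact h
    · exact h'.symm
    · exact (hopp _ _ h h').elim
  have hsubM : ∀ X, X ⊆ Mo N X := fun X z hz => mem_Mo.2 ⟨z.2, hz, hNr _⟩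
  have hsubL : ∀ X, X ⊆ Lo N X := fun X z hz => mem_Lo.2 ⟨z.1, hz, hNr _⟩
  let adm : Finset (V × V) × Finset (V × V) → Prop :=
    fun p => Δ ⊆ p.1 ∧ Δ ⊆ p.2 ∧ Mo N p.1 ∩ Lo N p.2 ⊆ Δ
  let β : Finset (V × V) × Finset (V × V) → ℤ :=
    fun p => (#(Mo N p.1) : ℤ) - #p.1 + #(Lo N p.2) - #p.2
  obtain ⟨⟨X, Y⟩, hXY, hmin⟩ := Finset.exists_min_image (univ.filter adm) β
    ⟨(Δ, Δ), Finset.mem_filter.2 ⟨Finset.mem_univ _, subset_rfl, subset_rfl, fun z hz =>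
      (hΔm z).2 (hNN _ _ ((hMΔ z).1 (Finset.mem_inter.1 hz).1)
        ((hLΔ z).1 (Finset.mem_inter.1 hz).2))⟩⟩
  obtain ⟨hΔX, hΔY, hadm⟩ := (Finset.mem_filter.1 hXY).2
  simp only at hΔX hΔY hadm
  -- every row of `X` is closed
  have hclosed : ∀ x, Fc A (univ.filter (fun y => (x, y) ∈ X)) =
      univ.filter (fun y => (x, y) ∈ X) := by
    by_contra hcon
    have h1 := hrow X (not_forall.1 hcon)
    have h2 := hcol Y
    set P := Mo N X with hP
    set Q := Lo N Y with hQ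
    have hRM : ∀ z, z ∈ Mo N (Lo N Q)ᶜ → z ∉ Lo N Δ := by
      intro z hz hz'
      obtain ⟨y, hy, hy'⟩ := mem_Mo.1 hz
      apply Finset.mem_compl.1 hy
      exact mem_Lo.2 ⟨z.2, mem_Lo.2 ⟨y, hΔY ((hΔm _).2 rfl), hy'⟩, (hLΔ z).1 hz'⟩
    have hCL : ∀ z, z ∈ Lo N (Mo N P)ᶜ → z ∉ Mo N Δ := by
      intro z hz hz'
      obtain ⟨x, hx, hx'⟩ := mem_Lo.1 hz
      apply Finset.mem_compl.1 hx
      exact mem_Mo.2 ⟨z.1, mem_Mo.2 ⟨x, hΔX ((hΔm _).2 rfl), hx'⟩, (hMΔ z).1 hz'⟩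
    obtain ⟨X1, hX1, Y1, hY1, hdisj, hcount⟩ := lemQ N (Lo N Q)ᶜ (Mo N P)ᶜ (P ∪ Q)ᶜ
      (Mo N Δ ∪ Lo N Δ)ᶜ (by
        intro r hr c hc h1 h2
        refine ⟨Finset.mem_compl.2 fun h => ?_, Finset.mem_compl.2 fun h => ?_⟩
        · rcases Finset.mem_union.1 h with h | h
          · exact Finset.mem_compl.1 hc (mem_Mo.2 ⟨r.2, h, h2⟩)
          · exact Finset.mem_compl.1 hr (mem_Lo.2 ⟨c.1, h, h1⟩)
        · rcases Finset.mem_union.1 h with h | h
          · exact hCL (r.1, c.2) (mem_Lo.2 ⟨c.1, hc, h1⟩) h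
          · exact hRM (r.1, c.2) (mem_Mo.2 ⟨r.2, hr, h2⟩) h)
    have hMU : ∀ z, z ∈ Mo N (X1 ∪ Δ) → z ∈ Mo N X1 ∨ z ∈ Mo N Δ := by
      intro z hz
      obtain ⟨y, hy, hy'⟩ := mem_Mo.1 hz
      rcases Finset.mem_union.1 hy with h | h
      · exact Or.inl (mem_Mo.2 ⟨y, h, hy'⟩)
      · exact Or.inr (mem_Mo.2 ⟨y, h, hy'⟩)
    have hLU : ∀ z, z ∈ Lo N (Y1 ∪ Δ) → z ∈ Lo N Y1 ∨ z ∈ Lo N Δ := by
      intro z hz
      obtain ⟨y, hy, hy'⟩ := mem_Lo.1 hz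
      rcases Finset.mem_union.1 hy with h | h
      · exact Or.inl (mem_Lo.2 ⟨y, h, hy'⟩)
      · exact Or.inr (mem_Lo.2 ⟨y, h, hy'⟩)
    have hadm' : Mo N (X1 ∪ Δ) ∩ Lo N (Y1 ∪ Δ) ⊆ Δ := by
      intro z hz
      obtain ⟨hz1, hz2⟩ := Finset.mem_inter.1 hz
      rcases hMU z hz1 with a | a <;> rcases hLU z hz2 with b | b
      · exact (Finset.disjoint_left.1 hdisj a b).elim
      · obtain ⟨y, hy, hy'⟩ := mem_Mo.1 a
        exact (hRM z (mem_Mo.2 ⟨y, hX1 hy, hy'⟩) b).elim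
      · obtain ⟨y, hy, hy'⟩ := mem_Lo.1 b
        exact (hCL z (mem_Lo.2 ⟨y, hY1 hy, hy'⟩) a).elim
      · exact (hΔm z).2 (hNN _ _ ((hMΔ z).1 a) ((hLΔ z).1 b))
    have h3 := hmin (X1 ∪ Δ, Y1 ∪ Δ) (Finset.mem_filter.2 ⟨Finset.mem_univ _,
      Finset.subset_union_right, Finset.subset_union_right, hadm'⟩)
    simp only [β] at h3
    rw [← hP, ← hQ] at h3
    have c1 : #(X1 ∪ Δ) = #X1 + #Δ := by
      refine Finset.card_union_of_disjoint (Finset.disjoint_left.2 fun z hz hz' => ?_)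
      exact Finset.mem_compl.1 (hX1 hz) (hsubL _ (hsubL _ (hΔY hz')))
    have c2 : #(Y1 ∪ Δ) = #Y1 + #Δ := by
      refine Finset.card_union_of_disjoint (Finset.disjoint_left.2 fun z hz hz' => ?_)
      exact Finset.mem_compl.1 (hY1 hz) (hsubM _ (hsubM _ (hΔX hz')))
    have c3 := Finset.card_union_add_card_inter (Mo N (X1 ∪ Δ)) (Lo N (Y1 ∪ Δ))
    have c4 := Finset.card_le_card hadm'
    have c5 : Mo N (X1 ∪ Δ) ∪ Lo N (Y1 ∪ Δ) ⊆ (Mo N Δ ∪ Lo N Δ) ∪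
        ((Mo N X1 ∩ (Mo N Δ ∪ Lo N Δ)ᶜ) ∪ (Lo N Y1 ∩ (Mo N Δ ∪ Lo N Δ)ᶜ)) := by
      intro z hz
      by_cases hzZ : z ∈ Mo N Δ ∪ Lo N Δ
      · exact Finset.mem_union_left _ hzZ
      refine Finset.mem_union_right _ ?_
      rcases Finset.mem_union.1 hz with h | h
      · rcases hMU z h with a | a
        · exact Finset.mem_union_left _ (Finset.mem_inter.2 ⟨a, Finset.mem_compl.2 hzZ⟩)
        · exact (hzZ (Finset.mem_union_left _ a)).elim
      · rcases hLU z h with a | a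
        · exact Finset.mem_union_right _ (Finset.mem_inter.2 ⟨a, Finset.mem_compl.2 hzZ⟩)
        · exact (hzZ (Finset.mem_union_right _ a)).elim
    have c6 := (Finset.card_le_card c5).trans ((Finset.card_union_le _ _).trans
      (Nat.add_le_add_left (Finset.card_union_le _ _) _))
    have c7 := Finset.card_union_add_card_inter P Q
    have c8 := Finset.card_le_card hadm
    have c9 := Finset.card_add_card_compl (P ∪ Q)
    have c10 := Finset.card_add_card_compl (Mo N Δ ∪ Lo N Δ)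
    have c11 := Finset.card_add_card_compl (Lo N Q)
    have c12 := Finset.card_add_card_compl (Mo N P)
    omega
  -- a minimal nonempty closed set
  obtain ⟨U, hU, hUmin⟩ := Finset.exists_min_image
    (univ.filter (fun U : Finset V => U.Nonempty ∧ Fc A U ⊆ U)) Finset.card
    ⟨univ, Finset.mem_filter.2 ⟨Finset.mem_univ _, Finset.univ_nonempty, Finset.subset_univ _⟩⟩
  obtain ⟨⟨x, hx⟩, hUc⟩ := (Finset.mem_filter.1 hU).2
  have h1 : ¬ Fc A (U.erase x) ⊆ U.erase x := by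
    intro h
    obtain ⟨w, hw⟩ := hout x
    have hne : (U.erase x).Nonempty :=
      ⟨w, Finset.mem_erase.2 ⟨fun h => hloop x (h ▸ hw), hUc (mem_Fc.2 ⟨x, hx, Or.inr hw⟩)⟩⟩
    have := hUmin _ (Finset.mem_filter.2 ⟨Finset.mem_univ _, hne, h⟩)
    have := Finset.card_erase_lt_of_mem hx
    omega
  obtain ⟨w, hw, hw'⟩ := Finset.not_subset.1 h1
  obtain ⟨u, hu, huw⟩ := mem_Fc.1 hw
  obtain ⟨hux, huU⟩ := Finset.mem_erase.1 hu
  have hwx : w = x := by
    by_contra h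
    exact hw' (Finset.mem_erase.2 ⟨h, hUc (mem_Fc.2 ⟨u, huU, huw⟩)⟩)
  subst hwx
  have h2 : U ∩ univ.filter (fun y => (w, y) ∈ X) = U := by
    apply Finset.eq_of_subset_of_card_le Finset.inter_subset_left
    refine hUmin _ (Finset.mem_filter.2 ⟨Finset.mem_univ _, ⟨w, Finset.mem_inter.2 ⟨hx,
      Finset.mem_filter.2 ⟨Finset.mem_univ _, hΔX ((hΔm _).2 rfl)⟩⟩⟩, ?_⟩)
    intro t ht
    obtain ⟨s, hs, hst⟩ := mem_Fc.1 ht
    obtain ⟨hs1, hs2⟩ := Finset.mem_inter.1 hs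
    refine Finset.mem_inter.2 ⟨hUc (mem_Fc.2 ⟨s, hs1, hst⟩), ?_⟩
    rw [← hclosed w]
    exact mem_Fc.2 ⟨s, hs2, hst⟩
  have h3 : (w, u) ∈ X := by
    rw [← h2] at huU
    exact (Finset.mem_filter.1 (Finset.mem_inter.1 huU).2).2
  have h4 : (w, u) ∈ Δ := hadm (Finset.mem_inter.2 ⟨hsubM _ h3,
    mem_Lo.2 ⟨u, hΔY ((hΔm _).2 rfl), huw⟩⟩)
  exact hux ((hΔm _).1 h4).symm

theorem main {V : Type*} [Fintype V] [Nonempty V] (n : ℕ) : ∀ (A : V → V → Prop),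
    (∀ v, ¬ A v v) → (∀ u v, A u v → ¬ A v u) → Set.ncard {p : V × V | A p.1 p.2} = n →
    ¬ ∀ v, #(N2 A v) < #(N1 A v) := by
  induction n using Nat.strong_induction_on with
  | _ n ih =>
  intro A hloop hopp hn hc
  refine core A hloop hopp (fun v => ?_) (fun S hS => ?_)
  · obtain ⟨u, hu⟩ := Finset.card_pos.1 (lt_of_le_of_lt (Nat.zero_le _) (hc v))
    exact ⟨u, mem_N1.1 hu⟩
  · by_contra hge
    obtain ⟨A', h1, ⟨u, v, h2, h3⟩, h4⟩ := sd_step A hc S hS (not_lt.1 hge)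
    refine ih _ ?_ A' (fun v h => hloop v (h1 _ _ h))
      (fun u v h h' => hopp u v (h1 _ _ h) (h1 _ _ h')) rfl h4
    rw [← hn]
    refine Set.ncard_lt_ncard ⟨fun p hp => h1 _ _ hp, fun h => h3 (h (a := (u, v)) h2)⟩
      (Set.toFinite _)

end Crest.Agent.R057
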