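import Crest.Agent.R057.Lin

set_option autoImplicit false

/-! The pruning lemma on pairs for row 57. -/

namespace Crest.Agent.R057

open Finset

open Classical in
/-- Row-wise image of a set of pairs. -/
noncomputable def Mo {V : Type*} [Fintype V] (N : V → V → Prop) (X : Finset (V × V)) :
    Finset (V × V) := univ.filter (fun z => ∃ y, (z.1, y) ∈ X ∧ N y z.2)

open Classical in
/-- Column-wise image of a set of pairs. -/
noncomputable def Lo {V : Type*} [Fintype V] (N : V → V → Prop) (Y : Finset (V × V)) :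
    Finset (V × V) := univ.filter (fun z => ∃ x, (x, z.2) ∈ Y ∧ N x z.1)

theorem mem_Mo {V : Type*} [Fintype V] {N : V → V → Prop} {X : Finset (V × V)} {z : V × V} :
    z ∈ Mo N X ↔ ∃ y, (z.1, y) ∈ X ∧ N y z.2 := by simp [Mo]

theorem mem_Lo {V : Type*} [Fintype V] {N : V → V → Prop} {Y : Finset (V × V)} {z : V × V} :
    z ∈ Lo N Y ↔ ∃ x, (x, z.2) ∈ Y ∧ N x z.1 := by simp [Lo]

theorem exists_generic {V : Type*} [Fintype V] (N : V → V → Prop) :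
    ∃ g : V → V → FractionRing (MvPolynomial (V × V) ℚ),
      (∀ u v, g u v ≠ 0 ↔ N u v) ∧ HG g ∧ HG (fun v u => g u v) := by
  classical
  refine ⟨_, ?_, hg_generic N (fun u v => (u, v)) ?_,
    hg_generic (fun v u => N u v) (fun v u => (u, v)) ?_⟩
  · intro u v
    by_cases h : N u v
    · simp only [h, if_true, iff_true]
      intro h0
      exact MvPolynomial.X_ne_zero (R := ℚ) (u, v)
        (IsFractionRing.injective (MvPolynomial (V × V) ℚ) (FractionRing (MvPolynomial (V × V) ℚ))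
          (by rw [h0, map_zero]))
    · simp [h]
  · intro r t r' t' h
    exact Prod.mk.inj h
  · intro r t r' t' h
    exact (Prod.mk.inj h).symm

theorem lemQ_aux {V F : Type*} [Fintype V] [DecidableEq V] [Field F] (N : V → V → Prop)
    (g : V → V → F) (hg : ∀ u v, g u v ≠ 0 ↔ N u v) (hG : HG g) (hG' : HG (fun v u => g u v))
    (R C H Z : Finset (V × V))
    (hHZ : ∀ r ∈ R, ∀ c ∈ C, N c.1 r.1 → N r.2 c.2 → (c.1, r.2) ∈ H ∧ (r.1, c.2) ∈ Z) :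
    ∃ X ⊆ R, ∃ Y ⊆ C, Disjoint (Mo N X) (Lo N Y) ∧
      #R + #C + #(Mo N X ∩ Z) + #(Lo N Y ∩ Z) ≤ #H + #Z + #X + #Y := by
  classical
  set ρH : V × V → V × V → F := fun r h => -(if h.2 = r.2 then g h.1 r.1 else 0) with hρH
  set ρZ : V × V → V × V → F := fun r z => if z.1 = r.1 then g r.2 z.2 else 0 with hρZ
  set γH : V × V → V × V → F := fun c h => if h.1 = c.1 then g h.2 c.2 else 0 with hγH
  set γZ : V × V → V × V → F := fun c z => if z.2 = c.2 then g c.1 z.1 else 0 with hγZ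
  have hHρZ : HG ρZ := hG.block_fst
  have hHγH : HG γH := hG'.block_fst
  have hHγZ : HG γZ := hG.block_snd
  have eρZ : ∀ r z, ρZ r z ≠ 0 ↔ z.1 = r.1 ∧ N r.2 z.2 := by
    intro r z
    by_cases h : z.1 = r.1 <;> simp [hρZ, h, ← hg]
  have eγH : ∀ c h, γH c h ≠ 0 ↔ h.1 = c.1 ∧ N h.2 c.2 := by
    intro c z
    by_cases h : z.1 = c.1 <;> simp [hγH, h, ← hg]
  have eγZ : ∀ c z, γZ c z ≠ 0 ↔ z.2 = c.2 ∧ N c.1 z.1 := by
    intro c z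
    by_cases h : z.2 = c.2 <;> simp [hγZ, h, ← hg]
  set ρ : V × V → (V × V) ⊕ (V × V) → F := fun r => Sum.elim (ρH r) (ρZ r) with hρ
  set γ : V × V → (V × V) ⊕ (V × V) → F := fun c => Sum.elim (γH c) (γZ c) with hγ
  have horth : ∀ r ∈ R, ∀ c ∈ C, ∑ s ∈ H.disjSum Z, ρ r s * γ c s = 0 := by
    intro r hr c hc
    rw [Finset.sum_disjSum]
    simp only [hρ, hγ, Sum.elim_inl, Sum.elim_inr]
    by_cases h0 : g c.1 r.1 * g r.2 c.2 = 0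
    · rw [Finset.sum_eq_zero, Finset.sum_eq_zero, add_zero]
      · rintro ⟨z1, z2⟩ _
        simp only [hρZ, hγZ]
        split_ifs with h1 h2
        · subst h1 h2
          rw [mul_comm, h0]
        all_goals simp
      · rintro ⟨z1, z2⟩ _
        simp only [hρH, hγH]
        split_ifs with h1 h2
        · subst h1 h2
          rw [neg_mul, h0, neg_zero]
        all_goals simp
    · obtain ⟨h1, h2⟩ := hHZ r hr c hc ((hg _ _).1 (left_ne_zero_of_mul h0))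
        ((hg _ _).1 (right_ne_zero_of_mul h0))
      rw [Finset.sum_eq_single_of_mem _ h1, Finset.sum_eq_single_of_mem _ h2]
      · simp only [hρH, hγH, hρZ, hγZ, if_true]
        ring
      · rintro ⟨z1, z2⟩ _ hne
        simp only [hρZ, hγZ]
        split_ifs with h1 h2
        · subst h1 h2
          exact (hne rfl).elim
        all_goals simp
      · rintro ⟨z1, z2⟩ _ hne
        simp only [hρH, hγH]
        split_ifs with h1 h2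
        · subst h1 h2
          exact (hne rfl).elim
        all_goals simp
  have hdim := orth_dim ρ γ R C (H.disjSum Z) horth
  rw [Finset.card_disjSum] at hdim
  set WR := Wk ρ R (H.disjSum Z) with hWR
  set WC := Wk γ C (H.disjSum Z) with hWC
  set X : Finset (V × V) := univ.filter (fun r => ∃ a ∈ WR, a r ≠ 0) with hX
  set Y : Finset (V × V) := univ.filter (fun c => ∃ a ∈ WC, a c ≠ 0) with hY
  have hXm : ∀ r, r ∈ X ↔ ∃ a ∈ WR, a r ≠ 0 := by intro r; simp [hX]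
  have hYm : ∀ r, r ∈ Y ↔ ∃ a ∈ WC, a r ≠ 0 := by intro r; simp [hY]
  have hXR : X ⊆ R := by
    intro r hr
    obtain ⟨a, ha, ha'⟩ := (hXm r).1 hr
    exact (mem_Wk.1 ha).1 r ha'
  have hYC : Y ⊆ C := by
    intro r hr
    obtain ⟨a, ha, ha'⟩ := (hYm r).1 hr
    exact (mem_Wk.1 ha).1 r ha'
  have hRZ : ∀ a ∈ WR, (∀ r, a r ≠ 0 → r ∈ X) ∧ ∀ t ∈ Z, ∑ r, a r * ρZ r t = 0 :=
    fun a ha => ⟨fun r hr => (hXm r).2 ⟨a, ha, hr⟩,
      fun t ht => (mem_Wk.1 ha).2 (Sum.inr t) (Finset.inr_mem_disjSum.2 ht)⟩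
  have hCZ : ∀ a ∈ WC, (∀ r, a r ≠ 0 → r ∈ Y) ∧ ∀ t ∈ Z, ∑ r, a r * γZ r t = 0 :=
    fun a ha => ⟨fun r hr => (hYm r).2 ⟨a, ha, hr⟩,
      fun t ht => (mem_Wk.1 ha).2 (Sum.inr t) (Finset.inr_mem_disjSum.2 ht)⟩
  have hCH : ∀ a ∈ WC, (∀ r, a r ≠ 0 → r ∈ Y) ∧ ∀ t ∈ H, ∑ r, a r * γH r t = 0 :=
    fun a ha => ⟨fun r hr => (hYm r).2 ⟨a, ha, hr⟩,
      fun t ht => (mem_Wk.1 ha).2 (Sum.inl t) (Finset.inl_mem_disjSum.2 ht)⟩
  have d1 : Module.finrank F WR + #(Mo N X ∩ Z) ≤ #X := by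
    refine finrank_add_card_le hHρZ X _ WR
      (fun a ha => ⟨(hRZ a ha).1, fun t ht => (hRZ a ha).2 t (Finset.mem_inter.1 ht).2⟩)
      (fun r hr => (hXm r).1 hr) ?_
    intro t ht
    obtain ⟨y, hy, hy'⟩ := mem_Mo.1 (Finset.mem_inter.1 ht).1
    exact ⟨(t.1, y), hy, (eρZ _ _).2 ⟨rfl, hy'⟩⟩
  have d2 : Module.finrank F WC + #(Lo N Y ∩ Z) ≤ #Y := by
    refine finrank_add_card_le hHγZ Y _ WC
      (fun a ha => ⟨(hCZ a ha).1, fun t ht => (hCZ a ha).2 t (Finset.mem_inter.1 ht).2⟩)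
      (fun r hr => (hYm r).1 hr) ?_
    intro t ht
    obtain ⟨x, hx, hx'⟩ := mem_Lo.1 (Finset.mem_inter.1 ht).1
    exact ⟨(x, t.2), hx, (eγZ _ _).2 ⟨rfl, hx'⟩⟩
  refine ⟨X, hXR, Y, hYC, ?_, by omega⟩
  rw [Finset.disjoint_left]
  rintro ⟨x0, w0⟩ hz1 hz2
  obtain ⟨y0, hy0, hy0'⟩ := mem_Mo.1 hz1
  obtain ⟨u0, hu0, hu0'⟩ := mem_Lo.1 hz2
  simp only at hy0 hy0' hu0 hu0'
  set T1 : Finset (V × V) :=
    univ.filter (fun z => z.1 = x0 ∧ (u0, z.2) ∈ Y ∧ ∃ y, (x0, y) ∈ X ∧ N y z.2) with hT1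
  set T2 : Finset (V × V) :=
    univ.filter (fun h => h.1 = u0 ∧ (x0, h.2) ∈ X ∧ ∃ w, (u0, w) ∈ Y ∧ N h.2 w) with hT2
  have hT1m : ∀ z, z ∈ T1 ↔ z.1 = x0 ∧ (u0, z.2) ∈ Y ∧ ∃ y, (x0, y) ∈ X ∧ N y z.2 := by
    intro z; simp [hT1]
  have hT2m : ∀ h, h ∈ T2 ↔ h.1 = u0 ∧ (x0, h.2) ∈ X ∧ ∃ w, (u0, w) ∈ Y ∧ N h.2 w := by
    intro z; simp [hT2]
  have s1 : #T1 < #(Γ ρZ X T1) := by
    refine strict_hall hHρZ X Z ?_ T1 ?_ ?_ ⟨(x0, w0), (hT1m _).2 ⟨rfl, hu0, y0, hy0, hy0'⟩⟩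
    · intro r hr
      obtain ⟨a, ha, ha'⟩ := (hXm r).1 hr
      exact ⟨a, ha', (hRZ a ha).1, (hRZ a ha).2⟩
    · rintro ⟨z1, z2⟩ hz
      obtain ⟨h1, h2, y, h3, h4⟩ := (hT1m _).1 hz
      simp only at h1 h2 h4
      subst h1
      exact (hHZ _ (hXR h3) _ (hYC h2) hu0' h4).2
    · rintro z hz
      obtain ⟨h1, h2, y, h3, h4⟩ := (hT1m _).1 hz
      exact ⟨(x0, y), h3, (eρZ _ _).2 ⟨h1, h4⟩⟩
  have s2 : #T2 < #(Γ γH Y T2) := by
    refine strict_hall hHγH Y H ?_ T2 ?_ ?_ ⟨(u0, y0), (hT2m _).2 ⟨rfl, hy0, w0, hu0, hy0'⟩⟩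
    · intro r hr
      obtain ⟨a, ha, ha'⟩ := (hYm r).1 hr
      exact ⟨a, ha', (hCH a ha).1, (hCH a ha).2⟩
    · rintro ⟨z1, z2⟩ hz
      obtain ⟨h1, h2, y, h3, h4⟩ := (hT2m _).1 hz
      simp only at h1 h2 h4
      subst h1
      exact (hHZ _ (hXR h2) _ (hYC h3) hu0' h4).1
    · rintro z hz
      obtain ⟨h1, h2, y, h3, h4⟩ := (hT2m _).1 hz
      exact ⟨(u0, y), h3, (eγH _ _).2 ⟨h1, h4⟩⟩
  have s3 : #(Γ ρZ X T1) ≤ #T2 := by
    refine Finset.card_le_card_of_injOn (fun r => (u0, r.2)) ?_ ?_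
    · rintro ⟨r1, r2⟩ hr
      obtain ⟨h1, t, ht, h2⟩ := mem_Γ.1 (Finset.mem_coe.1 hr)
      obtain ⟨h3, h4⟩ := (eρZ _ _).1 h2
      obtain ⟨h5, h6, -⟩ := (hT1m _).1 ht
      simp only at h3 h4
      have h7 : r1 = x0 := h3.symm.trans h5
      subst h7
      exact Finset.mem_coe.2 ((hT2m _).2 ⟨rfl, h1, t.2, h6, h4⟩)
    · intro r hr r' hr' hrr
      obtain ⟨-, t, ht, h2⟩ := mem_Γ.1 (Finset.mem_coe.1 hr)
      obtain ⟨-, t', ht', h2'⟩ := mem_Γ.1 (Finset.mem_coe.1 hr')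
      refine Prod.ext ?_ (Prod.mk.inj hrr).2
      rw [← ((eρZ _ _).1 h2).1, ← ((eρZ _ _).1 h2').1, ((hT1m _).1 ht).1, ((hT1m _).1 ht').1]
  have s4 : #(Γ γH Y T2) ≤ #T1 := by
    refine Finset.card_le_card_of_injOn (fun r => (x0, r.2)) ?_ ?_
    · rintro ⟨r1, r2⟩ hr
      obtain ⟨h1, t, ht, h2⟩ := mem_Γ.1 (Finset.mem_coe.1 hr)
      obtain ⟨h3, h4⟩ := (eγH _ _).1 h2
      obtain ⟨h5, h6, -⟩ := (hT2m _).1 ht
      simp only at h3 h4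
      have h7 : r1 = u0 := h3.symm.trans h5
      subst h7
      exact Finset.mem_coe.2 ((hT1m _).2 ⟨rfl, h1, t.2, h6, h4⟩)
    · intro r hr r' hr' hrr
      obtain ⟨-, t, ht, h2⟩ := mem_Γ.1 (Finset.mem_coe.1 hr)
      obtain ⟨-, t', ht', h2'⟩ := mem_Γ.1 (Finset.mem_coe.1 hr')
      refine Prod.ext ?_ (Prod.mk.inj hrr).2
      rw [← ((eγH _ _).1 h2).1, ← ((eγH _ _).1 h2').1, ((hT2m _).1 ht).1, ((hT2m _).1 ht').1]
  omega

theorem lemQ {V : Type*} [Fintype V] [DecidableEq V] (N : V → V → Prop)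
    (R C H Z : Finset (V × V))
    (hHZ : ∀ r ∈ R, ∀ c ∈ C, N c.1 r.1 → N r.2 c.2 → (c.1, r.2) ∈ H ∧ (r.1, c.2) ∈ Z) :
    ∃ X ⊆ R, ∃ Y ⊆ C, Disjoint (Mo N X) (Lo N Y) ∧
      #R + #C + #(Mo N X ∩ Z) + #(Lo N Y ∩ Z) ≤ #H + #Z + #X + #Y := by
  obtain ⟨g, hg, hG, hG'⟩ := exists_generic N
  exact lemQ_aux N g hg hG hG' R C H Z hHZ

end Crest.Agent.R057
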