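import Mathlib

set_option autoImplicit false

/-! Linear algebra for row 57: "Hall-generic" matrices, strict Hall inequalities for the support of
a left kernel, and the rank bound for two orthogonal families. -/

namespace Crest.Agent.R057

open Finset

/-- A matrix is Hall-generic when every square submatrix whose support carries a perfect matching
has trivial left kernel. -/
def HG {F α β : Type*} [Field F] [Fintype α] (ρ : α → β → F) : Prop :=
  ∀ (T : Finset β) (m : T → α), Function.Injective m → (∀ t : T, ρ (m t) t ≠ 0) →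
    ∀ a : α → F, (∀ r, a r ≠ 0 → ∃ t, m t = r) → (∀ t ∈ T, ∑ r, a r * ρ r t = 0) → ∀ r, a r = 0

theorem hg_generic {α β σ : Type*} [Fintype α] (N : α → β → Prop) [DecidableRel N]
    (e : α → β → σ) (he : ∀ r t r' t', e r t = e r' t' → r = r' ∧ t = t') :
    HG (fun r t => if N r t then
      algebraMap (MvPolynomial σ ℚ) (FractionRing (MvPolynomial σ ℚ)) (MvPolynomial.X (e r t))
      else 0) := by
  classical
  intro T m hm hN a ha hz
  have hN' : ∀ t : T, N (m t) t := by
    intro t
    by_contra h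
    exact hN t (by simp [h])
  set B0 : Matrix T T (MvPolynomial σ ℚ) :=
    fun s t => if N (m s) t then MvPolynomial.X (e (m s) t) else 0 with hB0
  have hdet0 : B0.det ≠ 0 := by
    intro h0
    have h1 : (MvPolynomial.eval (fun s => if ∃ t : T, s = e (m t) t then (1 : ℚ) else 0)) B0.det
        = 1 := by
      rw [RingHom.map_det]
      have : (MvPolynomial.eval (fun s => if ∃ t : T, s = e (m t) t then (1 : ℚ) else 0)).mapMatrix
          B0 = 1 := by
        ext s t
        simp only [RingHom.mapMatrix_apply, Matrix.map_apply, hB0]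
        by_cases hst : s = t
        · subst hst
          rw [if_pos (hN' s), MvPolynomial.eval_X, if_pos ⟨s, rfl⟩, Matrix.one_apply_eq]
        · rw [Matrix.one_apply_ne hst]
          split_ifs with h
          · rw [MvPolynomial.eval_X, if_neg]
            rintro ⟨u, hu⟩
            obtain ⟨h1, h2⟩ := he _ _ _ _ hu
            exact hst ((hm h1).trans (Subtype.ext h2).symm)
          · simp
      rw [this, Matrix.det_one]
    rw [h0] at h1
    simp at h1
  set B : Matrix T T (FractionRing (MvPolynomial σ ℚ)) :=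
    (algebraMap (MvPolynomial σ ℚ) (FractionRing (MvPolynomial σ ℚ))).mapMatrix B0 with hB
  have hdet : B.det ≠ 0 := by
    rw [hB, ← RingHom.map_det]
    intro h
    exact hdet0 (IsFractionRing.injective (MvPolynomial σ ℚ) (FractionRing (MvPolynomial σ ℚ))
      (by rw [h, map_zero]))
  have hv : Matrix.vecMul (fun s => a (m s)) B = 0 := by
    funext t
    have h := hz t t.2
    simp only [Matrix.vecMul, dotProduct, Pi.zero_apply]
    rw [← h]
    symm
    rw [← Finset.sum_subset (Finset.subset_univ (Finset.univ.image m)),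
      Finset.sum_image (fun x _ y _ hxy => hm hxy)]
    · refine Finset.sum_congr rfl fun s _ => ?_
      simp only [hB, hB0, RingHom.mapMatrix_apply, Matrix.map_apply]
      split_ifs <;> simp
    · intro r _ hr
      have : a r = 0 := by
        by_contra h'
        obtain ⟨t, ht⟩ := ha r h'
        exact hr (Finset.mem_image.2 ⟨t, Finset.mem_univ _, ht⟩)
      simp [this]
  have hz' := Matrix.eq_zero_of_vecMul_eq_zero hdet hv
  intro r
  by_contra h
  obtain ⟨t, ht⟩ := ha r h
  exact h (by rw [← ht]; exact congrFun hz' t)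

theorem HG.block_fst {F α β κ : Type*} [Field F] [Fintype α] [Fintype κ] [DecidableEq κ]
    {ρ : α → β → F} (h : HG ρ) :
    HG (fun (r : κ × α) (t : κ × β) => if t.1 = r.1 then ρ r.2 t.2 else 0) := by
  classical
  intro T m hm hN a ha hz
  have hk : ∀ t : T, t.1.1 = (m t).1 := by
    intro t
    by_contra h'
    exact hN t (by simp [h'])
  rintro ⟨k, r⟩
  set Tk : Finset β := (T.filter (fun t => t.1 = k)).image Prod.snd with hTk
  have hmem : ∀ t, t ∈ Tk → (k, t) ∈ T := by
    intro t ht
    obtain ⟨⟨k', t'⟩, h1, h2⟩ := Finset.mem_image.1 ht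
    obtain ⟨h3, h4⟩ := Finset.mem_filter.1 h1
    simp only at h2 h4
    subst h2 h4
    exact h3
  refine h Tk (fun t => (m ⟨(k, t.1), hmem _ t.2⟩).2) ?_ ?_ (fun r => a (k, r)) ?_ ?_ r
  · intro s t hst
    have h1 : m ⟨(k, s.1), hmem _ s.2⟩ = m ⟨(k, t.1), hmem _ t.2⟩ :=
      Prod.ext ((hk _).symm.trans (hk ⟨(k, t.1), hmem _ t.2⟩)) hst
    have h2 := congrArg (fun x : T => x.1.2) (hm h1)
    exact Subtype.ext h2
  · intro t
    have h1 := hN ⟨(k, t.1), hmem _ t.2⟩
    beta_reduce at h1
    rwa [if_pos (hk ⟨(k, t.1), hmem _ t.2⟩)] at h1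
  · intro r hr
    obtain ⟨⟨⟨k', t⟩, ht⟩, hmt⟩ := ha _ hr
    have h1 : k' = k := by
      have := hk ⟨(k', t), ht⟩
      rw [hmt] at this
      exact this
    subst h1
    refine ⟨⟨t, Finset.mem_image.2 ⟨(k', t), Finset.mem_filter.2 ⟨ht, rfl⟩, rfl⟩⟩, ?_⟩
    simp only [hmt]
  · intro t ht
    have h1 := hz _ (hmem t ht)
    rw [Fintype.sum_prod_type, Finset.sum_eq_single k] at h1
    · simpa using h1
    · intro k' _ hk'
      simp [Ne.symm hk']
    · simp

theorem HG.reindex {F α β α' β' : Type*} [Field F] [Fintype α] [Fintype α']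
    {ρ : α → β → F} (h : HG ρ) (e : α' ≃ α) (f : β' ≃ β) :
    HG (fun r t => ρ (e r) (f t)) := by
  classical
  intro T m hm hN a ha hz r
  have hmem : ∀ t, t ∈ T.map f.toEmbedding → f.symm t ∈ T := by
    intro t ht
    simpa using ht
  have := h (T.map f.toEmbedding) (fun t => e (m ⟨f.symm t.1, hmem _ t.2⟩)) ?_ ?_
    (fun r => a (e.symm r)) ?_ ?_ (e r)
  · simpa using this
  · intro s t hst
    have h1 := congrArg Subtype.val (hm (e.injective hst))
    exact Subtype.ext (f.symm.injective h1)
  · intro t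
    simpa using hN ⟨f.symm t.1, hmem _ t.2⟩
  · intro r hr
    obtain ⟨t, ht⟩ := ha _ hr
    refine ⟨⟨f t.1, by simp⟩, ?_⟩
    simp [ht]
  · intro t ht
    have h1 := hz _ (hmem t ht)
    rw [← h1, ← e.sum_comp]
    simp

theorem HG.block_snd {F α β κ : Type*} [Field F] [Fintype α] [Fintype κ] [DecidableEq κ]
    {ρ : α → β → F} (h : HG ρ) :
    HG (fun (r : α × κ) (t : β × κ) => if t.2 = r.2 then ρ r.1 t.1 else 0) :=
  (h.block_fst (κ := κ)).reindex (Equiv.prodComm α κ) (Equiv.prodComm β κ)

open Classical in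
/-- Neighbours in `X` of a set of columns. -/
noncomputable def Γ {F α β : Type*} [Field F] (ρ : α → β → F) (X : Finset α) (T : Finset β) :
    Finset α := X.filter (fun r => ∃ t ∈ T, ρ r t ≠ 0)

theorem mem_Γ {F α β : Type*} [Field F] {ρ : α → β → F} {X : Finset α} {T : Finset β} {r : α} :
    r ∈ Γ ρ X T ↔ r ∈ X ∧ ∃ t ∈ T, ρ r t ≠ 0 := by
  simp [Γ]

theorem exists_matching {F α β : Type*} [Field F] {ρ : α → β → F} {X : Finset α} {T : Finset β}
    (h : ∀ T' ⊆ T, #T' ≤ #(Γ ρ X T')) :
    ∃ m : T → α, Function.Injective m ∧ ∀ t : T, m t ∈ X ∧ ρ (m t) t ≠ 0 := by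
  classical
  have := (Finset.all_card_le_biUnion_card_iff_exists_injective
    (fun t : T => X.filter (fun r => ρ r t ≠ 0))).1 ?_
  · obtain ⟨m, hm, hm'⟩ := this
    exact ⟨m, hm, fun t => Finset.mem_filter.1 (hm' t)⟩
  · intro s
    have h1 := h (s.map (Function.Embedding.subtype _)) (by
      intro t ht
      obtain ⟨u, _, rfl⟩ := Finset.mem_map.1 ht
      exact u.2)
    rw [Finset.card_map] at h1
    refine h1.trans (Finset.card_le_card ?_)
    intro r hr
    obtain ⟨h2, t, ht, h3⟩ := mem_Γ.1 hr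
    obtain ⟨u, hu, rfl⟩ := Finset.mem_map.1 ht
    exact Finset.mem_biUnion.2 ⟨u, hu, Finset.mem_filter.2 ⟨h2, h3⟩⟩

/-- Strict Hall inequalities for the support of a left kernel of a Hall-generic matrix. -/
theorem strict_hall {F α β : Type*} [Field F] [Fintype α] {ρ : α → β → F} (h : HG ρ)
    (X : Finset α) (T : Finset β)
    (hX : ∀ r ∈ X, ∃ a : α → F, a r ≠ 0 ∧ (∀ r, a r ≠ 0 → r ∈ X) ∧
      ∀ t ∈ T, ∑ r, a r * ρ r t = 0) :
    ∀ T' ⊆ T, (∀ t ∈ T', ∃ r ∈ X, ρ r t ≠ 0) → T'.Nonempty → #T' < #(Γ ρ X T') := by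
  classical
  intro T'
  induction T' using Finset.strongInduction with
  | H T' ih =>
  intro hT' hn hne
  by_contra hlt
  push Not at hlt
  have hall : ∀ T'' ⊆ T', #T'' ≤ #(Γ ρ X T'') := by
    intro T'' hT''
    rcases T''.eq_empty_or_nonempty with rfl | hne''
    · simp
    by_cases heq : T'' = T'
    · subst heq
      obtain ⟨t, ht⟩ := hne''
      rcases (T''.erase t).eq_empty_or_nonempty with he | he
      · have h1 : #T'' = 1 := by
          have := Finset.card_erase_add_one ht
          rw [he] at this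
          simpa using this.symm
        rw [h1]
        obtain ⟨r, hr, hr'⟩ := hn t ht
        exact Finset.card_pos.2 ⟨r, mem_Γ.2 ⟨hr, t, ht, hr'⟩⟩
      · have h1 := ih (T''.erase t) (Finset.erase_ssubset ht)
          ((Finset.erase_subset _ _).trans hT')
          (fun u hu => hn u (Finset.mem_of_mem_erase hu)) he
        have h2 : #(Γ ρ X (T''.erase t)) ≤ #(Γ ρ X T'') := by
          refine Finset.card_le_card fun r hr => ?_
          obtain ⟨h2, u, hu, h3⟩ := mem_Γ.1 hr
          exact mem_Γ.2 ⟨h2, u, Finset.mem_of_mem_erase hu, h3⟩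
        have h3 := Finset.card_erase_add_one ht
        omega
    · exact (ih T'' (Finset.ssubset_iff_subset_ne.2 ⟨hT'', heq⟩) (hT''.trans hT')
        (fun u hu => hn u (hT'' hu)) hne'').le
  obtain ⟨m, hm, hm'⟩ := exists_matching hall
  have himg : Finset.univ.image m = Γ ρ X T' := by
    apply Finset.eq_of_subset_of_card_le
    · intro r hr
      obtain ⟨t, _, rfl⟩ := Finset.mem_image.1 hr
      exact mem_Γ.2 ⟨(hm' t).1, t, t.2, (hm' t).2⟩
    · rw [Finset.card_image_of_injective _ hm]
      simpa using hlt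
  obtain ⟨t0, ht0⟩ := hne
  obtain ⟨a, ha0, haX, haz⟩ := hX _ (hm' ⟨t0, ht0⟩).1
  have := h T' m hm (fun t => (hm' t).2) (fun r => if r ∈ Γ ρ X T' then a r else 0) ?_ ?_
    (m ⟨t0, ht0⟩)
  · rw [if_pos (by rw [← himg]; exact Finset.mem_image_of_mem _ (Finset.mem_univ _))] at this
    exact ha0 this
  · intro r hr
    have h1 : r ∈ Γ ρ X T' := by
      by_contra h1
      exact hr (if_neg h1)
    rw [← himg] at h1
    obtain ⟨t, _, ht⟩ := Finset.mem_image.1 h1
    exact ⟨t, ht⟩
  · intro t ht
    refine Eq.trans ?_ (haz t (hT' ht))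
    refine Finset.sum_congr rfl fun r _ => ?_
    split_ifs with h1
    · rfl
    · by_cases h2 : a r = 0
      · simp [h2]
      · have h3 : ρ r t = 0 := by
          by_contra h3
          exact h1 (mem_Γ.2 ⟨haX r h2, t, ht, h3⟩)
        simp [h3]

/-- Dimension bound for a space of left-kernel vectors supported on `X`. -/
theorem finrank_add_card_le {F α β : Type*} [Field F] [Fintype α] {ρ : α → β → F} (h : HG ρ)
    (X : Finset α) (T : Finset β) (W : Submodule F (α → F))
    (hW : ∀ a ∈ W, (∀ r, a r ≠ 0 → r ∈ X) ∧ ∀ t ∈ T, ∑ r, a r * ρ r t = 0)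
    (hX : ∀ r ∈ X, ∃ a ∈ W, a r ≠ 0) (hT : ∀ t ∈ T, ∃ r ∈ X, ρ r t ≠ 0) :
    Module.finrank F W + #T ≤ #X := by
  classical
  have hall : ∀ T' ⊆ T, #T' ≤ #(Γ ρ X T') := by
    intro T' hT'
    rcases T'.eq_empty_or_nonempty with rfl | hne
    · simp
    refine (strict_hall h X T ?_ T' hT' (fun t ht => hT t (hT' ht)) hne).le
    intro r hr
    obtain ⟨a, ha, ha'⟩ := hX r hr
    exact ⟨a, ha', (hW a ha).1, (hW a ha).2⟩
  obtain ⟨m, hm, hm'⟩ := exists_matching hall
  set Y : Finset α := X \ Finset.univ.image m with hY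
  let φ : W →ₗ[F] (Y → F) :=
    (LinearMap.funLeft F F (fun y : Y => (y : α))).comp W.subtype
  have hφ : Function.Injective φ := by
    rw [← LinearMap.ker_eq_bot, LinearMap.ker_eq_bot']
    intro a ha
    apply Subtype.ext
    funext r
    refine h T m hm (fun t => (hm' t).2) a.1 ?_ (hW _ a.2).2 r
    intro r hr
    by_contra hc
    have h1 : r ∈ Y := by
      refine Finset.mem_sdiff.2 ⟨(hW _ a.2).1 r hr, ?_⟩
      intro h2
      obtain ⟨t, _, ht⟩ := Finset.mem_image.1 h2
      exact hc ⟨t, ht⟩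
    exact hr (congrFun ha ⟨r, h1⟩)
  have h1 := LinearMap.finrank_le_finrank_of_injective hφ
  rw [Module.finrank_fintype_fun_eq_card, Fintype.card_coe] at h1
  have h2 : #Y + #T = #X := by
    have h3 : Finset.univ.image m ⊆ X := by
      intro r hr
      obtain ⟨t, _, rfl⟩ := Finset.mem_image.1 hr
      exact (hm' t).1
    have h4 := Finset.card_sdiff_add_card_eq_card h3
    rw [Finset.card_image_of_injective _ hm, Finset.card_univ, Fintype.card_coe] at h4
    exact h4
  omega

/-- Left kernel of the submatrix with rows `R` and columns `S`, extended by zero. -/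
def Wk {F α ι : Type*} [Field F] [Fintype α] (ρ : α → ι → F) (R : Finset α) (S : Finset ι) :
    Submodule F (α → F) where
  carrier := {a | (∀ r, a r ≠ 0 → r ∈ R) ∧ ∀ s ∈ S, ∑ r, a r * ρ r s = 0}
  add_mem' := by
    rintro a b ⟨ha, ha'⟩ ⟨hb, hb'⟩
    refine ⟨fun r hr => ?_, fun s hs => ?_⟩
    · by_contra h
      apply hr
      have h1 : a r = 0 := by by_contra h1; exact h (ha r h1)
      have h2 : b r = 0 := by by_contra h2; exact h (hb r h2)
      simp [h1, h2]
    · simp [add_mul, Finset.sum_add_distrib, ha' s hs, hb' s hs]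
  zero_mem' := ⟨fun r hr => (hr rfl).elim, fun s _ => by simp⟩
  smul_mem' := by
    rintro c a ⟨ha, ha'⟩
    refine ⟨fun r hr => ha r fun h => hr (by simp [h]), fun s hs => ?_⟩
    simp [mul_assoc, ← Finset.mul_sum, ha' s hs]

theorem mem_Wk {F α ι : Type*} [Field F] [Fintype α] {ρ : α → ι → F} {R : Finset α}
    {S : Finset ι} {a : α → F} :
    a ∈ Wk ρ R S ↔ (∀ r, a r ≠ 0 → r ∈ R) ∧ ∀ s ∈ S, ∑ r, a r * ρ r s = 0 := Iff.rfl

theorem card_le_rank_add {F α ι : Type*} [Field F] [Fintype α] (ρ : α → ι → F) (R : Finset α)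
    (S : Finset ι) :
    #R ≤ (Matrix.of (fun (r : R) (s : S) => ρ r s)).rank + Module.finrank F (Wk ρ R S) := by
  classical
  set A : Matrix R S F := Matrix.of (fun (r : R) (s : S) => ρ r s) with hA
  have h1 := LinearMap.finrank_range_add_finrank_ker A.transpose.mulVecLin
  rw [Module.finrank_fintype_fun_eq_card, Fintype.card_coe] at h1
  have h2 : A.rank = Module.finrank F (LinearMap.range A.transpose.mulVecLin) := by
    rw [← Matrix.rank_transpose]; rfl
  let ψ : (R → F) →ₗ[F] (α → F) :=
    { toFun := fun a r => if h : r ∈ R then a ⟨r, h⟩ else 0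
      map_add' := by intro a b; funext r; by_cases h : r ∈ R <;> simp [h]
      map_smul' := by intro c a; funext r; by_cases h : r ∈ R <;> simp [h] }
  have hψ : ∀ a ∈ LinearMap.ker A.transpose.mulVecLin, ψ a ∈ Wk ρ R S := by
    intro a ha
    refine ⟨fun r hr => ?_, fun s hs => ?_⟩
    · by_contra h
      exact hr (dif_neg h)
    · have h3 := congrFun (LinearMap.mem_ker.1 ha) ⟨s, hs⟩
      simp only [Matrix.mulVecLin_apply, Matrix.mulVec, dotProduct, Matrix.transpose_apply, hA,
        Matrix.of_apply, Pi.zero_apply] at h3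
      rw [← h3, ← Finset.sum_subset (Finset.subset_univ R), ← Finset.sum_coe_sort R]
      · refine Finset.sum_congr rfl fun r _ => ?_
        simp [ψ, mul_comm]
      · intro r _ hr
        simp [ψ, hr]
  have h3 : Function.Injective (ψ.restrict hψ) := by
    intro a b hab
    apply Subtype.ext
    funext r
    have := congrFun (congrArg Subtype.val hab) r.1
    simpa [ψ] using this
  have h4 := LinearMap.finrank_le_finrank_of_injective h3
  omega

theorem orth_dim {F α β ι : Type*} [Field F] [Fintype α] [Fintype β] (ρ : α → ι → F)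
    (γ : β → ι → F) (R : Finset α) (C : Finset β) (S : Finset ι)
    (h : ∀ r ∈ R, ∀ c ∈ C, ∑ s ∈ S, ρ r s * γ c s = 0) :
    #R + #C ≤ #S + Module.finrank F (Wk ρ R S) + Module.finrank F (Wk γ C S) := by
  have h1 := card_le_rank_add ρ R S
  have h2 := card_le_rank_add γ C S
  have h3 : (Matrix.of (fun (r : R) (s : S) => ρ r s)) *
      (Matrix.of (fun (r : C) (s : S) => γ r s)).transpose = 0 := by
    ext r c
    simp only [Matrix.mul_apply, Matrix.transpose_apply, Matrix.of_apply, Matrix.zero_apply]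
    rw [← h r r.2 c c.2, ← Finset.sum_coe_sort S]
  have h4 := Matrix.rank_add_rank_le_card_of_mul_eq_zero h3
  rw [Matrix.rank_transpose, Fintype.card_coe] at h4
  omega

end Crest.Agent.R057
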